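import Vale.Agent.P028.FullMeasure

/-!
# P028: inhomogeneous full measure under a divisor-weighted divergence
-/

open MeasureTheory

namespace Vale.Agent.Results.P028.DivisorWeighted

theorem result :
    (∀ (γ : ℝ) (δ : ℕ → ℝ), (∀ q, 0 ≤ δ q) → (∀ q, δ q ≤ 1/2) → ∀ K : ℝ,
      (∀ N : ℕ, ∃ F : Finset ℕ, (∀ q ∈ F, N ≤ q) ∧ 0 < ∑ q ∈ F, δ q ∧
        ∑ q ∈ F, δ q * (q.divisors.card : ℝ) ≤ K * (∑ q ∈ F, δ q) ^ 2) →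
      ∀ᵐ x : ℝ, {q : ℕ | 1 ≤ q ∧ ∃ a : ℤ, |(q : ℝ) * x - a - γ| < δ q}.Infinite) ∧
    (∀ (γ : ℝ) (ψ : ℕ → ℝ), (∀ q, 0 ≤ ψ q) → ∀ ε : ℝ, 0 < ε →
      ¬ Summable (fun q : ℕ => ψ q /
        ((q.divisors.card : ℝ) * ((Nat.log 2 q.divisors.card : ℝ) + 1) ^ (1 + ε))) →
      ∀ᵐ x : ℝ, {q : ℕ | 1 ≤ q ∧ ∃ a : ℤ, |(q : ℝ) * x - a - γ| < ψ q}.Infinite) :=
  ⟨Vale.Agent.P028.ae_infinite_of_families, Vale.Agent.P028.ae_infinite_of_divergence⟩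

end Vale.Agent.Results.P028.DivisorWeighted
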