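import Vale.Agent.P028.Sel.ExtraPower

/-!
# P028: full measure under a slightly stronger divergence, for arbitrary shifts
-/

open MeasureTheory

namespace Vale.Agent.Results.P028.ExtraPower

theorem result :
    ∀ (η : ℝ), 0 < η → ∀ (γ : ℕ → ℝ) (ψ : ℕ → ℝ), (∀ q, 0 ≤ ψ q) →
      ¬ Summable (fun q : ℕ => (Nat.totient q : ℝ) / q * ψ q ^ (1 + η)) →
      ∀ᵐ x : ℝ, {q : ℕ | 1 ≤ q ∧ ∃ a : ℤ, |(q : ℝ) * x - a - γ q| < ψ q}.Infinite :=
  fun η hη γ ψ hψ h => Vale.Agent.P028.Sel.ae_infinite_extra_power γ ψ hψ η hη h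

end Vale.Agent.Results.P028.ExtraPower
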