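import Vale.Agent.P028.Sel.Decay

/-!
# P028: Q1 for almost every shift with respect to every measure with decaying cosine coefficients
-/

open MeasureTheory

namespace Vale.Agent.Results.P028.FourierShifts

theorem result :
    ∀ (μ : Measure ℝ) [IsFiniteMeasure μ] (a C : ℝ), 0 < a →
      (∀ n : ℕ, 1 ≤ n → |∫ t, Real.cos (2 * Real.pi * n * t) ∂μ| ≤ C * (n : ℝ) ^ (-a)) →
      ∀ ψ : ℕ → ℝ, (∀ q, 0 ≤ ψ q) →
        ¬ Summable (fun q : ℕ => (Nat.totient q : ℝ) / q * ψ q) →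
        ∀ᵐ γ ∂μ, ∀ᵐ x : ℝ,
          {q : ℕ | 1 ≤ q ∧ ∃ b : ℤ, |(q : ℝ) * x - b - γ| < ψ q}.Infinite :=
  fun μ _ _ _ ha h ψ hψ hdiv => Vale.Agent.P028.Sel.ae_decay μ ha h ψ hψ hdiv

end Vale.Agent.Results.P028.FourierShifts
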