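import Vale.Agent.P028.Sel.Mono

/-!
# P028: Q1 for log-monotone functions on arbitrary supports, and up to a doubly logarithmic factor
-/

open MeasureTheory

namespace Vale.Agent.Results.P028.LogMonotone

theorem result :
    ∀ (γ : ℝ) (ψ : ℕ → ℝ), (∀ q, 0 ≤ ψ q) →
      ((∃ K : ℝ, ∀ᶠ v : ℕ in Filter.atTop, ∀ w : ℕ, v ≤ w → (w : ℝ) * ψ v ≤ v →
            1 / (v : ℝ) ^ 2 ≤ ψ v → 0 < ψ w → ψ w ^ K ≤ ψ v) ∧
          ¬ Summable (fun q : ℕ => (Nat.totient q : ℝ) / q * ψ q)) ∨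
        (∃ η : ℝ, 0 < η ∧ ¬ Summable (fun q : ℕ => (Nat.totient q : ℝ) / q * ψ q /
          (1 + Real.log (1 + |Real.log (ψ q)|)) ^ η)) →
      ∀ᵐ x : ℝ, {q : ℕ | 1 ≤ q ∧ ∃ a : ℤ, |(q : ℝ) * x - a - γ| < ψ q}.Infinite := by
  intro γ ψ hψ h
  rcases h with ⟨⟨K, hK⟩, hdiv⟩ | ⟨η, hη, hdiv⟩
  · exact Vale.Agent.P028.Sel.ae_mono γ ψ hψ K hK hdiv
  · exact Vale.Agent.P028.Sel.ae_llog γ ψ hψ η hη hdiv

end Vale.Agent.Results.P028.LogMonotone
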